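import Vale.Agent.P143.Core
import Vale.Agent.P143.LabelGlue

universe u

/-- Positive answer to P143: the free uniform spanning forest is a factor of IID on every Cayley
graph, and a graph factor of IID on every unimodular random graph; moreover one measurable
isomorphism-invariant rule works for all infinite connected locally finite graphs. -/
theorem Vale.Agent.Results.P143.FIID.result :
    P143.CayleyHalf.{u} ∧ P143.UnimodularHalf ∧ P143.UniversalRule :=
  P143.all_of P143.core P143.labelStatement
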